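import Vale.Agent.P004F.St
import Vale.Agent.P004F.Qx.Fr

/-! # P004F: the formal group has finite index (row IDX) -/

set_option linter.all false

open NumberField Polynomial WeierstrassCurve.Affine
open scoped Classical

noncomputable section

namespace Vale.Agent.P004F.Ix

open Vale.Agent.P022 P004K P179W Qx Qx.Fg
open P004M.TE (Pt ga Cv)

section val

variable {Γ : Type} [LinearOrderedCommGroupWithZero Γ] {v : Valuation Qb Γ}

theorem ml {a b c : Qb} (ha : v a ≤ 1) (hb : v b < v c) : v (a * b) < v c :=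
  (val_mul_le ha le_rfl).trans_lt (by rwa [one_mul])

/-- close integral points differ by a point in the kernel of the reduction -/
theorem near {A B : ℤ} {x₁ y₁ x₂ y₂ : Qb} (h₁ : (Cv Qb (A : ℚ) (B : ℚ)).Nonsingular x₁ y₁)
    (h₂ : (Cv Qb (A : ℚ) (B : ℚ)).Nonsingular x₂ y₂) (a₁ : v x₁ ≤ 1) (a₂ : v x₂ ≤ 1) {D : ℤ}
    (hD : D = 4 * A ^ 3 + 27 * B ^ 2) (hx : v (x₁ - x₂) < v (2 * D))
    (hy : v (y₁ - y₂) < v (2 * D)) : KerV v (Point.some x₁ y₁ h₁ - .some x₂ y₂ h₂) := by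
  rw [sub_eq_add_neg, Point.neg_some]
  have hn : (Cv Qb (A : ℚ) (B : ℚ)).negY x₂ y₂ = -y₂ := by simp [negY]
  generalize (nonsingular_neg ..).2 h₂ = h₃
  by_cases hxy : x₁ = x₂ ∧ y₁ = (Cv Qb (A : ℚ) (B : ℚ)).negY x₂ ((Cv Qb (A : ℚ) (B : ℚ)).negY x₂ y₂)
  · rw [Point.add_of_Y_eq hxy.1 hxy.2]; trivial
  rw [Point.add_some hxy]
  obtain ⟨l, n, x₃, hl, hx₃, e₁, e₂, -, s1, s2, -⟩ := line_rel h₁.1 h₃.1 hxy
  show ¬ v _ ≤ 1
  rw [← hl, ← hx₃]
  intro a₃
  simp only [eA, zero_mul, add_zero, sub_zero] at s1 s2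
  rw [hn] at e₂
  have al : v l ≤ 1 := by
    have := v.map_add_le (v.map_add_le a₁ a₂) a₃
    rwa [s1, map_pow, pow_le_one_iff_of_nonneg zero_le' two_ne_zero] at this
  have p2 : 0 < v 2 := zero_lt_iff.2 (by simp)
  have d : v (2 * D) ≤ v D := by simpa using val_mul_le (vn (v := v) 2) (le_refl (v D))
  have b1 : v y₁ < v D := by
    have : v (2 * y₁) < v (2 * D) := by
      rw [show 2 * y₁ = l * (x₁ - x₂) + (y₁ - y₂) by linear_combination e₁ - e₂]
      exact v.map_add_lt (ml al hx) hy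
    rw [map_mul, map_mul] at this
    exact lt_of_mul_lt_mul_left this zero_le'
  have b2 : v (3 * x₁ ^ 2 + A) < v D := by
    rw [show 3 * x₁ ^ 2 + A = l * (y₁ - y₂) + (x₁ + x₁ + x₂) * (x₁ - x₂) by
      linear_combination (x₁ + x₂) * s1 - s2 - l * e₁ - l * e₂]
    exact (v.map_add_lt (ml al hy) (ml (v.map_add_le (v.map_add_le a₁ a₁) a₂) hx)).trans_le d
  have i : ∀ (m : ℤ) {a : Qb}, v a ≤ 1 → v (m * a) ≤ 1 := fun m _ h => val_mul_le_one (vi m) h
  have : v (D : Qb) < v (D : Qb) := by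
    conv_lhs => rw [show (D : Qb) = (((3 : ℤ) * x₁ ^ 2 + (4 * A : ℤ)) * (3 * x₁ ^ 2 + A)) *
      (3 * x₁ ^ 2 + A) - ((27 : ℤ) * ((x₁ ^ 3 + A * x₁ - B) * y₁)) * y₁ by
        rw [hD]; push_cast; linear_combination 27 * (x₁ ^ 3 + A * x₁ - B) * eq' h₁]
    exact v.map_sub_lt (ml (val_mul_le_one (v.map_add_le (i 3 (val_pow_le_one a₁ 2)) (vi _))
      (b2.le.trans (vi D))) b2) (ml (i 27 (val_mul_le_one (v.map_sub_le (v.map_add_le
      (val_pow_le_one a₁ 3) (i A a₁)) (vi B)) (b1.le.trans (vi D)))) b1)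
  exact this.false

/-- finitely many residues -/
theorem res {q : ℕ} (hq : 1 < q) : ∃ T : Set Qb, T.Finite ∧ ∀ a, v (a ^ q - a) < 1 →
    ∃ t ∈ T, v (a - t) < 1 := by
  have hm : (X ^ q - X : Qb[X]).Monic := (monic_X_pow q).sub_of_left (by
    rw [degree_X_pow, degree_X]; exact_mod_cast hq)
  refine ⟨_, (X ^ q - X : Qb[X]).roots.finite_toSet, fun a ha => by_contra fun k => ?_⟩
  have e := congrArg (eval a) ((IsAlgClosed.splits _).eq_prod_roots_of_monic hm)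
  rw [eval_sub, eval_pow, eval_X, eval_multiset_prod, Multiset.map_map] at e
  rw [e, map_multiset_prod, Multiset.map_map] at ha
  refine ha.not_ge (Multiset.one_le_prod_of_one_le fun x hx => ?_)
  obtain ⟨t, ht, rfl⟩ := Multiset.mem_map.1 hx
  simpa using not_lt.1 fun h => k ⟨t, ht, h⟩

/-- finitely many classes -/
theorem cls {R : Set Qb} {q : ℕ} (hq : 1 < q) (h1 : ∀ a ∈ R, v (a ^ q - a) < 1)
    (h2 : ∀ a ∈ R, ∀ b ∈ R, v (a - b) < 1 → (a - b) / 2 ∈ R) (h3 : v 2 ≤ 1) (M : ℕ) :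
    ∃ T : Set Qb, T.Finite ∧ ∀ a ∈ R, ∃ t ∈ T, v (a - t) < v 2 ^ M := by
  obtain ⟨T, f, hT⟩ := res (v := v) hq
  let r : Qb → Qb := fun t => if h : ∃ a ∈ R, v (a - t) < 1 then h.choose else 0
  have hr : ∀ a ∈ R, ∃ s ∈ r '' T, s ∈ R ∧ v (a - s) < 1 := fun a ha => by
    obtain ⟨t, ht, h⟩ := hT a (h1 a ha)
    have k : ∃ a ∈ R, v (a - t) < 1 := ⟨a, ha, h⟩
    refine ⟨_, ⟨t, ht, dif_pos k⟩, k.choose_spec.1, ?_⟩
    rw [← sub_sub_sub_cancel_right a _ t]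
    exact v.map_sub_lt h k.choose_spec.2
  induction M with
  | zero => exact ⟨T, f, fun a ha => by simpa using hT a (h1 a ha)⟩
  | succ M ih =>
    obtain ⟨T', f', h'⟩ := ih
    refine ⟨_, (f.image r).image2 (fun s t => s + 2 * t) f', fun a ha => ?_⟩
    obtain ⟨s, hs, k1, k2⟩ := hr a ha
    obtain ⟨t, ht, k3⟩ := h' _ (h2 a ha s k1 k2)
    refine ⟨_, Set.mem_image2_of_mem hs ht, ?_⟩
    rw [show a - (s + 2 * t) = 2 * ((a - s) / 2 - t) by ring, map_mul, pow_succ']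
    exact mul_lt_mul_of_pos_left k3 (zero_lt_iff.2 (by simp))

theorem two_le (h2 : v 2 < 1) (ho : ∀ m : ℤ, ¬ 2 ∣ m → v m = 1) {D : ℤ} (h : D ≠ 0) :
    ∃ M : ℕ, v 2 ^ M ≤ v D := by
  obtain ⟨M, m, hm, rfl⟩ := WfDvdMonoid.max_power_factor h Int.prime_two.irreducible
  exact ⟨M, by rw [Int.cast_mul, map_mul, ho m hm, mul_one]; simp⟩

end val

/-- row IDX -/
theorem idx : IDX := by
  intro A B hD P φ ⟨_, hP, h2⟩ hφ κ f hκ hf
  obtain ⟨O, hO⟩ := ex_O hP (ne_bot two_ne_zero h2)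
  obtain ⟨-, -, -, -, -, fk⟩ := fg A B hD P hP (ne_bot two_ne_zero h2)
  have v2 : O.valuation 2 < 1 := (hO.mem hP (2 : ℕ)).2 h2
  have ho : ∀ m : ℤ, ¬ 2 ∣ m → O.valuation m = 1 := fun m hm => le_antisymm (vi m) (not_lt.1
    fun k => hm ((int_mem hP Nat.prime_two h2 m).1 ((hO.mem hP m).1 k)))
  let R : Set Qb := {a | (∀ g : GQ, (∀ x : 𝓞 Qb, g • x - x ∈ P) → g a = a) ∧ (φ ^ f) a = a ∧
    O.valuation a ≤ 1}
  obtain ⟨M, hM⟩ := two_le v2 ho (D := 2 * (4 * A ^ 3 + 27 * B ^ 2)) (mul_ne_zero two_ne_zero hD)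
  obtain ⟨N, hN⟩ := two_le v2 ho (D := κ) (Nat.cast_ne_zero.2 hκ)
  rw [Int.cast_mul, Int.cast_ofNat] at hM
  obtain ⟨T, fT, hT⟩ := cls (v := O.valuation) (R := R) (Nat.one_lt_two_pow hf)
    (fun a ha => by
      rw [Valuation.map_sub_swap, ← hO.zp]
      simpa only [ha.2.1] using frob hP (frob_pow hφ f) ((hO.ip a).2 ha.2.2))
    (fun a ha b hb h => ⟨fun g hg => by rw [map_div₀, map_sub, ha.1 g hg, hb.1 g hg, map_ofNat],
      by rw [map_div₀, map_sub, ha.2.1, hb.2.1, map_ofNat], (hO.ip _).1 (unv 2 P Nat.prime_two hP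
        h2 _ (fun g hg => by rw [map_sub, ha.1 g hg, hb.1 g hg]) ((hO.zp _).2 h))⟩) v2.le M
  choose! c hc using hT
  let G : AddSubgroup (Pt A B) := .ofSub {y | Ur P y ∧ ga (φ ^ f) y = y}
    ⟨0, fun g _ => map_zero _, map_zero _⟩ fun x a y b =>
      ⟨fun g hg => by rw [map_add, map_neg, a.1 g hg, b.1 g hg],
        by rw [map_add, map_neg, a.2, b.2]⟩
  let H : AddSubgroup (Pt A B) := .ofSub {y | KerV O.valuation y} ⟨0, trivial⟩ fun x a y b =>
    kerV_add cf a (kerV_neg.2 b)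
  have fx : ∀ {g : GQ} {x y h}, ga g (.some x y h : Pt A B) = .some x y h → g x = x ∧ g y = y :=
    fun e => by rw [P004M.TE.ga_some] at e; simpa using e
  let cl : Pt A B → Option (Qb × Qb) := fun y => match y with
    | .zero => none
    | .some x y _ => if O.valuation x ≤ 1 then some (c x, c y) else none
  have mR : ∀ {x y h}, (.some x y h : Pt A B) ∈ G → O.valuation x ≤ 1 → x ∈ R ∧ y ∈ R :=
    fun k a => ⟨⟨fun g hg => (fx (k.1 g hg)).1, (fx k.2).1, a⟩,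
      fun g hg => (fx (k.1 g hg)).2, (fx k.2).2, y_int cf (by assumption : Nonsingular ..).1 a⟩
  have c0 : ∀ y, cl y = none → y ∈ H := by
    rintro (_ | ⟨x, y, h⟩) e
    · trivial
    · exact fun a => Option.some_ne_none _ ((if_pos a).symm.trans e)
  have c1 : ∀ y ∈ G, ∀ y' ∈ G, cl y = cl y' → y - y' ∈ H := by
    intro y a y' b e
    by_cases n : cl y = none
    · exact H.sub_mem (c0 y n) (c0 y' (e ▸ n))
    have n' : cl y' ≠ none := e ▸ n
    rcases y with _ | ⟨x₁, y₁, h₁⟩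
    · exact absurd rfl n
    rcases y' with _ | ⟨x₂, y₂, h₂⟩
    · exact absurd rfl n'
    have a₁ : O.valuation x₁ ≤ 1 := by_contra fun k => n (if_neg k)
    have a₂ : O.valuation x₂ ≤ 1 := by_contra fun k => n' (if_neg k)
    simp only [cl, if_pos a₁, if_pos a₂, Option.some.injEq, Prod.mk.injEq] at e
    have s : ∀ {s t}, s ∈ R → t ∈ R → c s = c t → O.valuation (s - t) < O.valuation 2 ^ M :=
      fun {s t} hs ht e => by
        rw [← sub_sub_sub_cancel_right s t (c t)]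
        exact O.valuation.map_sub_lt (e ▸ (hc s hs).2) (hc t ht).2
    exact near h₁ h₂ a₁ a₂ rfl ((s (mR a a₁).1 (mR b a₂).1 e.1).trans_le hM)
      ((s (mR a a₁).2 (mR b a₂).2 e.2).trans_le hM)
  have c2 : (cl '' G).Finite := by
    refine (((fT.prod fT).image some).insert none).subset ?_
    rintro _ ⟨_ | ⟨x, y, h⟩, a, rfl⟩
    · exact .inl rfl
    by_cases k : O.valuation x ≤ 1
    · exact .inr ⟨(c x, c y), ⟨(hc x (mR a k).1).1, (hc y (mR a k).2).1⟩, (if_pos k).symm⟩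
    · exact .inl (if_neg k)
  have := c2.to_subtype
  have fin : Finite (G ⧸ H.addSubgroupOf G) := Finite.of_injective
    (fun z => (⟨cl z.out, z.out, z.out.2, rfl⟩ : cl '' G)) fun z z' e => by
      rw [← z.out_eq, ← z'.out_eq]
      refine (QuotientAddGroup.eq_iff_sub_mem).2 ?_
      exact c1 _ z.out.2 _ z'.out.2 (congrArg Subtype.val e)
  refine ⟨2 ^ N * (H.addSubgroupOf G).index, mul_ne_zero (by positivity)
    AddSubgroup.index_ne_zero_of_finite, fun y a b => ?_⟩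
  have k1 : KerV O.valuation ((H.addSubgroupOf G).index • y) :=
    AddSubgroup.mem_addSubgroupOf.1 ((H.addSubgroupOf G).nsmul_index_mem ⟨y, a, b⟩)
  have k2 := (G.nsmul_mem (x := y) ⟨a, b⟩ (H.addSubgroupOf G).index).1
  rw [mul_smul]
  generalize (H.addSubgroupOf G).index • y = w at k1 k2
  have k3 : ∀ i : ℕ, Fk P (2 ^ (i + 1)) (2 ^ i • w) := fun i => by
    induction i with
    | zero =>
      rw [pow_zero, one_smul]
      exact ⟨(hO.k1 _).2 k1, unv 2 P Nat.prime_two hP h2 _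
        (fun g hg => by rw [← zf_ga, k2 g hg]) ((hO.zp _).2 (ker k1).1)⟩
    | succ i ih =>
      rw [pow_succ' 2 (i + 1), show 2 ^ (i + 1) • w = 2 • 2 ^ i • w by rw [pow_succ', mul_smul]]
      exact (((fk _ (by positivity)).2.2 (dvd_pow_self 2 i.succ_ne_zero) _).1 ih).1
  have k4 := (hO.fk (by positivity) _).1 (k3 N)
  refine (hO.fk hκ _).2 ⟨k4.1, k4.2.trans (le_trans ?_ hN)⟩
  rw [Nat.cast_pow, map_pow]
  exact pow_le_pow_right_of_le_one' v2.le N.le_succ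

end Vale.Agent.P004F.Ix
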